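import Vale.Agent.P218WZ.Final
import Vale.Agent.P218WC.Mono
import Vale.Agent.P218WW.White
import Vale.Agent.P218WS.QS
import Vale.Agent.P218WS.Sheet
import Vale.Agent.P218WL.Cell
import Vale.Agent.P218WK.Tang
import Vale.Agent.P218WK.RegPt
import Vale.Agent.P218WL.Flat
import Vale.Agent.P218WL.TD
import Vale.Agent.P218WV.Visc
import Vale.Agent.P218WT.Err
import Vale.Agent.P218WK.Lim
import Vale.Agent.P218WY.Unit
import Vale.Agent.P218WE.Dens
import Vale.Agent.P218WM.M1
import Vale.Agent.P218WO.Core

/-! The blocks of the team P218W, without hypotheses. -/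

namespace Vale.Agent.P218WZ

open Vale.Agent.P218WA Vale.Agent.P218WC

theorem tangA : TangW := P218WK.tang calcW monoW

theorem flatA : FlatW := P218WL.flatW calcW monoW tangA

theorem cellA : CellW := P218WL.cellW calcW monoW

theorem sheetA : SheetW := P218WS.sheetW monoW (P218WW.white calcW monoW)

theorem regPtA : RegPtW := P218WK.regPt calcW tangA flatA sheetA

theorem unitA : UnitW := P218WY.unitW tangA flatA

theorem coreA : CoreW :=
  P218WO.core P218UZ.calcA P218UZ.cylA calcW monoW (P218WS.qsW calcW monoW sheetA) cellA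
    (P218WV.viscW calcW) P218WT.errW (P218WL.tdW calcW)

theorem shapeA : ShapeW :=
  shapeW (P218WM.m1W calcW tangA coreA cellA flatA)
    (P218WE.densW calcW monoW tangA coreA cellA flatA regPtA) (P218WK.lim calcW tangA regPtA) tangA

end Vale.Agent.P218WZ
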