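import Vale.Agent.P218WZ.Defs
import Vale.Agent.P218VG.Betti

/-! A bound on the first Betti number implies the cohomological hypothesis of the local
Gauss-Bonnet estimate. -/

open Set Filter Topology

namespace Vale.Agent.P218WZ

open Vale.Agent.P218VG (H1le ev_const)

variable {X Y : Type*} [TopologicalSpace X] [TopologicalSpace Y] {B : ℕ}

theorem BettiLE.homeo (h : BettiLE X B) (e : X ≃ₜ Y) : BettiLE Y B := fun u => by
  obtain ⟨k, hk, θ, hθ⟩ := h fun i => (u i).comp e
  exact ⟨k, hk, θ.comp e.symm, fun y => by simpa using hθ (e.symm y)⟩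

theorem BettiLE.h1le (h : BettiLE X B) : H1le X B := by
  classical
  intro ι _ u hu _
  let P : Submodule ℝ (ι → ℝ) :=
    { carrier := {k | ∃ L : X → ℝ, ∀ (x : X) (θ : ι → X → ℝ), (∀ i, ContinuousAt (θ i) x) →
        (∀ i, ∀ᶠ y in 𝓝 x, Circle.exp (θ i y) = u i y) →
        ∀ᶠ y in 𝓝 x, L y - ∑ i, k i * θ i y = L x - ∑ i, k i * θ i x}
      zero_mem' := ⟨0, fun x θ _ _ => by simp⟩
      add_mem' := fun ⟨L, hL⟩ ⟨L', hL'⟩ => ⟨L + L', fun x θ h1 h2 => by
        filter_upwards [hL x θ h1 h2, hL' x θ h1 h2] with y a b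
        simp only [Pi.add_apply, add_mul, Finset.sum_add_distrib]
        linarith⟩
      smul_mem' := fun c k ⟨L, hL⟩ => ⟨c • L, fun x θ h1 h2 => by
        filter_upwards [hL x θ h1 h2] with y a
        simp only [Pi.smul_apply, smul_eq_mul, mul_assoc, ← Finset.mul_sum, ← mul_sub, a]⟩ }
  refine ⟨P, ?_, fun k hk => hk⟩
  by_contra! hlt
  obtain ⟨κ, a, ha, h1, h2⟩ := exists_linearIndependent' ℝ
    fun i : ι => P.mkQ (Pi.single i (1 : ℝ))
  have : Finite κ := Finite.of_injective a ha
  have := Fintype.ofFinite κ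
  have h3 : Submodule.span ℝ (range fun i : ι => P.mkQ (Pi.single i (1 : ℝ))) = ⊤ := by
    have := congrArg (Submodule.map P.mkQ) (Pi.basisFun ℝ ι).span_eq
    rw [Submodule.map_span, ← range_comp, Submodule.map_top, Submodule.range_mkQ] at this
    simpa [Function.comp_def] using this
  have h4 := finrank_span_eq_card h2
  rw [h1, h3, finrank_top] at h4
  have h5 := P.finrank_quotient_add_finrank
  rw [Module.finrank_fintype_fun_eq_card] at h5
  obtain ⟨e⟩ : Nonempty (Fin (B + 1) ↪ κ) :=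
    Function.Embedding.nonempty_of_card_le (by rw [Fintype.card_fin]; omega)
  obtain ⟨k, hk, θ₀, hθ⟩ := h fun j => ⟨u (a (e j)), hu _⟩
  have h6 : (∑ j, (k j : ℝ) • (Pi.single (a (e j)) (1 : ℝ) : ι → ℝ)) ∈ P := by
    refine ⟨θ₀, fun x θ hc he => ?_⟩
    have e1 : ∀ y, ∑ i, (∑ j, (k j : ℝ) • (Pi.single (a (e j)) (1 : ℝ) : ι → ℝ)) i * θ i y
        = ∑ j, k j * θ (a (e j)) y := fun y => by
      simp only [Finset.sum_apply, Finset.sum_mul, Pi.smul_apply, smul_eq_mul]
      rw [Finset.sum_comm]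
      simp [Pi.single_apply]
    simp only [e1]
    refine ev_const (d := fun y => θ₀ y - ∑ j, k j * θ (a (e j)) y)
      (θ₀.continuous.continuousAt.sub (tendsto_finsetSum _ fun j _ => (hc _).const_mul _)) ?_
    filter_upwards [eventually_all.2 he] with y hy
    rw [Circle.exp_sub, ← hθ, div_eq_one, eq_comm]
    have e2 : ∀ (s : Finset (Fin (B + 1))) (f : Fin (B + 1) → ℝ),
        Circle.exp (∑ j ∈ s, f j) = ∏ j ∈ s, Circle.exp (f j) := fun s f =>
      map_sum Circle.expHom f s
    simp [e2, hy]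
  have h7 := Fintype.linearIndependent_iff.1 (h2.comp e e.injective) (fun j => (k j : ℝ)) (by
    have := (Submodule.Quotient.mk_eq_zero P).2 h6
    rw [← Submodule.mkQ_apply, map_sum] at this
    simpa only [map_smul, Function.comp] using this)
  exact hk (funext fun j => by exact_mod_cast h7 j)

end Vale.Agent.P218WZ
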