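import Vale.Agent.P218UK.Brakke
import Vale.Agent.P218.H552.Flow

/-! The generalised mean curvature of a varifold whose weight is the area measure of a smooth surface
is the mean curvature of the surface. -/

open MeasureTheory Set Filter Topology Module
open scoped RealInnerProductSpace ContDiff

namespace Vale.Agent.P218WZ

open Vale.Agent.P218UA Vale.Agent.P218UK Vale.Agent.P218.H552
open Vale.Agent.P214 (proj divAlong)
open Vale.Agent.P218GA (area hyp ae_area continuous_gradient)

variable {w : E3 → ℝ} {T : E3 → Submodule ℝ E3} {H : E3 → E3}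

lemma tan_eq (h : IsSurf w) (hM : MC 2 (area 2 w) T H) :
    ∀ᵐ x ∂(area 2 w), T x = hyp (gradient w x) := by
  have := surf_locFin h
  have hg := continuous_gradient (surf_cd1 h)
  have hG : ContDiff ℝ 1 (gradient w) := P218.H63.contDiff_gradient (surf_cd2 h) (by norm_num)
  have h1 : ∀ᵐ x ∂(area 2 w), ⟪gradient w x, proj (T x) (gradient w x)⟫ = 0 := by
    refine ae_eq_zero_of_integral_contDiff_smul_eq_zero ((locallyIntegrable_const (1 : ℝ)).mono
      (hg.aestronglyMeasurable.inner (aesm_apply' hM.Tmeas hg.aestronglyMeasurable)) ?_)
      fun g h1 h2 => ?_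
    · filter_upwards [ae_area h.smooth.continuous] with x hx
      have := (proj (T x)).le_of_opNorm_le (norm_proj_le _) (gradient w x)
      refine (norm_inner_le_norm _ _).trans ?_
      simpa [surf_unit h x hx] using this
    · have h3 : ContDiff ℝ 1 fun z => g z * w z := (h1.of_le (by simp)).mul (surf_cd1 h)
      have h4 := hM.fv (fun z => (g z * w z) • gradient w z) (h3.smul hG)
        (h2.mul_right.smul_right (f' := gradient w))
      rw [integral_congr_ae (g := fun _ => (0 : ℝ)) (f := fun x => ⟪_, H x⟫)
        ((ae_area h.smooth.continuous).mono fun x hx => by simp [hx]), integral_zero, neg_zero] at h4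
      rw [← h4]
      refine integral_congr_ae ((ae_area h.smooth.continuous).mono fun x hx => ?_)
      have d := ((h1.differentiable (by simp) x).hasFDerivAt.mul
        ((surf_cd1 h).differentiable one_ne_zero x).hasFDerivAt).smul
        (hG.differentiable one_ne_zero x).hasFDerivAt
      simp only [divAlong]
      rw [show fderiv ℝ (fun z => (g z * w z) • gradient w z) x = _ from d.fderiv, Pi.mul_apply, hx,
        mul_zero, zero_smul, zero_add, trace_comp_smulRight]
      simp
  filter_upwards [h1, hM.dim, ae_area h.smooth.continuous] with x h2 h3 hx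
  have h4 : proj (T x) (gradient w x) = 0 := by
    have := inner_proj_of_mem_orthogonal (T x) (gradient w x) _ (sub_proj_mem (T x) (gradient w x))
    rw [inner_sub_right, real_inner_comm, h2, zero_sub, neg_eq_zero] at this
    exact inner_self_eq_zero.1 this
  have h5 : gradient w x ∈ (T x)ᗮ := by simpa [h4] using sub_proj_mem (T x) (gradient w x)
  refine Submodule.eq_of_le_of_finrank_eq (fun v hv => ?_) ?_
  · exact Submodule.mem_orthogonal_singleton_iff_inner_left.2 (h5 v hv)
  · rw [h3, P218GA.finrank_hyp finrank_E3 (norm_ne_zero_iff.1 (by simp [surf_unit h x hx]))]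

theorem mc_eq (hC : Calc) (h : IsSurf w) (hM : MC 2 (area 2 w) T H) : H =ᵐ[area 2 w] mcv w := by
  have := surf_locFin h
  have h1 : LocallyIntegrable H (area 2 w) := locallyIntegrable_iff.2 fun K hK =>
    ((integrableOn_const (C := (1 : ℝ)) hK.measure_ne_top).add (hM.locL2 K hK)).mono'
      hM.meas.restrict (Eventually.of_forall fun x => by
        simp only [Pi.add_apply]; nlinarith [sq_nonneg (‖H x‖ - 1)])
  have h2 := (continuous_mcv h).locallyIntegrable (μ := area 2 w)
  refine ae_eq_of_integral_contDiff_smul_eq h1 h2 fun g h3 h4 => ext_inner_left ℝ fun e => ?_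
  have h5 : ContDiff ℝ 1 fun x => g x • e := (h3.of_le (by simp)).smul contDiff_const
  have h6 := hM.fv _ h5 h4.smul_right
  have h7 := (mc_of_isMeanCurvature (surfV_mc hC h)).fv _ h5 h4.smul_right
  rw [surfV_weight] at h7
  rw [integral_congr_ae ((tan_eq h hM).mono fun x hx => congrArg (divAlong · _ x) hx)] at h6
  rw [← integral_inner (h1.integrable_smul_left_of_hasCompactSupport h3.continuous h4),
    ← integral_inner (h2.integrable_smul_left_of_hasCompactSupport h3.continuous h4)]
  simpa only [real_inner_smul_left, real_inner_smul_right] using neg_injective (h6.symm.trans h7)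

end Vale.Agent.P218WZ
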