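import Vale.Agent.P218.Defs
import Vale.Agent.P218FS.Defs

/-! Almost regular Brakke flows of surfaces in `ℝ³`. As in `Vale.Agent.P218.Defs`, the area measure
of a surface `S` of multiplicity one is `μH[2] ⌞ S`. -/

open MeasureTheory Set Filter Topology
open scoped Manifold ContDiff

namespace Vale.Agent.P218WZ

open Vale.Agent.P218 (densityRatio)
open Vale.Agent.P218FS (IsSmoothMCF)

/-- The first Betti number of `X`, the rank of `H¹(X; ℤ) = [X, S¹]`, is at most `B`: any `B + 1`
maps `X → S¹` have a nontrivial integer combination with a continuous argument. For a closed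
surface in `ℝ³` the first Betti number is twice the total genus. -/
def BettiLE (X : Type*) [TopologicalSpace X] (B : ℕ) : Prop :=
  ∀ u : Fin (B + 1) → C(X, Circle), ∃ k : Fin (B + 1) → ℤ, k ≠ 0 ∧
    ∃ θ : C(X, ℝ), ∀ x, ∏ i, u i x ^ k i = Circle.exp (θ x)

/-- `t` is a regular time: on a time interval around `t`, `μ` is a smooth mean curvature flow of
multiplicity one of closed embedded surfaces (not necessarily connected, possibly empty), whose first
Betti number is at most `B`. -/
def IsRegularTime (μ : ℝ → Measure (EuclideanSpace ℝ (Fin 3))) (B : ℕ) (t : ℝ) : Prop :=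
  ∃ (M : Type) (_ : TopologicalSpace M) (_ : ChartedSpace (EuclideanSpace ℝ (Fin 2)) M),
    IsManifold (𝓡 2) ∞ M ∧ T2Space M ∧ CompactSpace M ∧ BettiLE M B ∧
    ∃ (F : ℝ → M → EuclideanSpace ℝ (Fin 3)) (a T : ℝ), t ∈ Ioo a (a + T) ∧
      IsSmoothMCF (fun i => (EuclideanSpace.single i 1 : EuclideanSpace ℝ (Fin 2))) F T ∧
      Function.Injective (F 0) ∧ ∀ s ∈ Ico 0 T,
        μ (a + s) = (μH[2] : Measure (EuclideanSpace ℝ (Fin 3))).restrict (range (F s))

/-- `(x, t)` is a regular point: in an open neighbourhood `U` of `(t, x)` in space-time (backwards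
and forwards in time), `μ` is a smooth family of smooth embedded surfaces of multiplicity one, the
regular zero sets of `Φ (s, ·)`. -/
def IsRegularPoint (μ : ℝ → Measure (EuclideanSpace ℝ (Fin 3))) (x : EuclideanSpace ℝ (Fin 3))
    (t : ℝ) : Prop :=
  ∃ (U : Set (ℝ × EuclideanSpace ℝ (Fin 3))) (Φ : ℝ × EuclideanSpace ℝ (Fin 3) → ℝ),
    IsOpen U ∧ (t, x) ∈ U ∧ ContDiffOn ℝ ∞ Φ U ∧
    (∀ p ∈ U, Φ p = 0 → gradient (fun y => Φ (p.1, y)) p.2 ≠ 0) ∧
    ∀ s, (μ s).restrict {y | (s, y) ∈ U} =
      (μH[2] : Measure (EuclideanSpace ℝ (Fin 3))).restrict {y | (s, y) ∈ U ∧ Φ (s, y) = 0}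

/-- Gaussian density one: the density ratio of a static plane of multiplicity one -/
noncomputable def unitDensity : ℝ :=
  densityRatio 2 (fun _ => (μH[2] : Measure (EuclideanSpace ℝ (Fin 3))).restrict {y | y 2 = 0}) 0 0 1

/-- On the set `J` of times the flow is almost regular with bounded genus: almost every time is
regular, with a uniform bound on the first Betti number, and the flow is unit-regular, that is,
every point of Gaussian density one is a regular point. -/
structure IsAlmostRegularOn (μ : ℝ → Measure (EuclideanSpace ℝ (Fin 3))) (J : Set ℝ) : Prop where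
  regularTimes : ∃ B : ℕ, ∀ᵐ t : ℝ, t ∈ J → IsRegularTime μ B t
  unitRegular : ∀ t ∈ J, ∀ x, Tendsto (densityRatio 2 μ x t) (𝓝[>] 0) (𝓝 unitDensity) →
    IsRegularPoint μ x t

end Vale.Agent.P218WZ
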