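import Vale.Agent.P218WZ.Defs
import Vale.Agent.P218WA.Defs
import Vale.Agent.P218UZ.Flow
import Vale.Agent.P218GA.Split

/-! Regular points of the family of measures are regular points of the level set description. -/

open MeasureTheory Set Filter Topology Metric
open scoped RealInnerProductSpace ContDiff

namespace Vale.Agent.P218WZ

open Vale.Agent.P218UA Vale.Agent.P218WA
open Vale.Agent.P218UZ (gx exists_level pm_of_abs hasFDerivAt_slice)
open Vale.Agent.P218GA (hyp finrank_hyp)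

/-- a regular level set has positive area near each of its points -/
lemma pos_zero {g : E3 → ℝ} {x : E3} (hg : ContDiffAt ℝ 1 g x) (h0 : g x = 0)
    (hn : gradient g x ≠ 0) {V : Set E3} (hV : V ∈ 𝓝 x) :
    (μH[2] : Measure E3) (V ∩ {y | g y = 0}) ≠ 0 := fun h => by
  set π := (hyp (gradient g x)).orthogonalProjectionOnto
  have h1 := ((hg.hasStrictFDerivAt one_ne_zero).prodMk π.hasStrictFDerivAt).map_nhds_eq_of_surj
    (LinearMap.range_eq_top.2 fun z => ⟨(z.1 / ‖gradient g x‖ ^ 2) • gradient g x + z.2, by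
      have e : π (gradient g x) = 0 := Submodule.orthogonalProjectionOnto_apply_of_mem_orthogonal
        (Submodule.le_orthogonal_orthogonal _ (Submodule.mem_span_singleton_self _))
      have := norm_ne_zero_iff.2 hn
      ext
      · simp [← inner_gradient_left, inner_add_right, inner_smul_right, P218GA.inner_hyp, this]
      · simp [π, e]⟩)
  have h2 : π '' (V ∩ {y | g y = 0}) ∈ 𝓝 (π x) := by
    refine mem_of_superset ((Continuous.prodMk_right (0 : ℝ)).continuousAt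
      (h0 ▸ h1 ▸ image_mem_map hV)) ?_
    rintro k ⟨y, hy, e⟩
    exact ⟨y, ⟨hy, congrArg Prod.fst e⟩, congrArg Prod.snd e⟩
  have h3 := π.lipschitz.hausdorffMeasure_image_le (d := 2) zero_le_two (V ∩ {y | g y = 0})
  have h4 := Measure.measure_pos_of_mem_nhds (μH[Module.finrank ℝ (hyp (gradient g x))]) h2
  rw [finrank_hyp (m := 2) (by simp) hn, Nat.cast_ofNat] at h4
  rw [h, mul_zero] at h3
  exact h4.not_ge h3

lemma abs_le_static {a b : E3 → ℝ} {x : E3} {R : ℝ}
    (ha : ∀ y ∈ ball x R, DifferentiableAt ℝ a y ∧ ‖gradient a y‖ = 1)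
    (hb : ∀ y ∈ ball x R, DifferentiableAt ℝ b y ∧ ‖gradient b y‖ = 1)
    (h : ∀ y ∈ ball x R, b y = 0 → a y = 0) (hR : |b x| < R) : |a x| ≤ |b x| := by
  have hx : x ∈ ball x R := mem_ball_self ((abs_nonneg _).trans_lt hR)
  rcases eq_or_ne (b x) 0 with h0 | h0
  · simp [h x hx h0]
  replace h0 := abs_pos.2 h0
  refine le_of_forall_gt_imp_ge_of_dense fun ρ' hρ' => ?_
  obtain ⟨ρ, h1, h2⟩ := exists_between (lt_min hρ' hR)
  have hK : closedBall x ρ ⊆ ball x R := closedBall_subset_ball (h2.trans_le (min_le_right _ _))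
  set c := ρ / |b x| with hc
  have h3 : 1 < c := (one_lt_div h0).2 h1
  obtain ⟨y, hy, hm⟩ := (isCompact_closedBall x ρ).exists_isMinOn
    (f := fun y => c * |b y| + dist y x) ⟨x, mem_closedBall_self (h0.trans h1).le⟩
    fun y hy => (((hb y (hK hy)).1.continuousAt.abs.const_mul c).add
      (continuousAt_id.dist continuousAt_const)).continuousWithinAt
  have h4 : b y = 0 := by
    by_contra h5
    have h6 : c * |b y| + dist y x ≤ c * |b x| + dist x x :=
      hm (mem_closedBall_self (h0.trans h1).le)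
    rw [hc, div_mul_cancel₀ _ h0.ne', ← hc] at h6
    have h7 : dist y x < ρ := by
      have := mul_pos (zero_lt_one.trans h3) (abs_pos.2 h5)
      rw [dist_self] at h6
      linarith
    obtain ⟨σ, h8, h9⟩ : ∃ σ : ℝ, σ * σ = 1 ∧ ∀ᶠ s in 𝓝 (b y), |s| = σ * s := by
      rcases lt_or_gt_of_ne h5 with h | h
      · exact ⟨-1, by simp, (gt_mem_nhds h).mono fun s hs => by simp [abs_of_neg hs]⟩
      · exact ⟨1, by simp, (lt_mem_nhds h).mono fun s hs => by simp [abs_of_pos hs]⟩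
    have hl : HasDerivAt (fun τ : ℝ => y + τ • (-σ) • gradient b y) ((-σ) • gradient b y) 0 := by
      simpa using ((hasDerivAt_id (0 : ℝ)).smul_const ((-σ) • gradient b y)).const_add y
    have hd := (hb y (hK hy)).1.hasFDerivAt.comp_hasDerivAt_of_eq 0 hl (by simp)
    have e : c * σ * fderiv ℝ b y ((-σ) • gradient b y) + 1 < 0 := by
      rw [← inner_gradient_left, real_inner_smul_right, real_inner_self_eq_norm_sq,
        (hb y (hK hy)).2]
      nlinarith
    have hl' : Tendsto (fun τ : ℝ => y + τ • (-σ) • gradient b y) (𝓝[>] 0) (𝓝 y) := by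
      simpa using hl.continuousAt.tendsto.mono_left (nhdsWithin_le_nhds (s := Ioi 0))
    obtain ⟨τ, a1, a2, a3, a4⟩ := ((((hd.const_mul (c * σ)).add
      (hasDerivAt_id 0)).tendsto_slope_zero_right.eventually (gt_mem_nhds e)).and
      ((hl'.eventually (closedBall_mem_nhds_of_mem h7)).and
      ((((hb y (hK hy)).1.continuousAt.tendsto.comp hl').eventually h9).and
        self_mem_nhdsWithin))).exists
    have a5 : c * |b y| + dist y x ≤ _ := hm a2
    have a6 := dist_triangle (y + τ • (-σ) • gradient b y) y x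
    have a7 : |σ| = 1 := by nlinarith [abs_mul_abs_self σ, abs_nonneg σ]
    rw [dist_self_add_left, norm_smul, norm_smul, (hb y (hK hy)).2, Real.norm_of_nonneg (le_of_lt a4),
      norm_neg, Real.norm_eq_abs, a7] at a6
    simp only [Function.comp] at a3 a5
    rw [a3, h9.self_of_nhds] at a5
    simp only [smul_eq_mul, inv_mul_lt_iff₀ (show 0 < τ from a4), Pi.add_apply, Function.comp,
      zero_add, id, zero_smul, add_zero] at a1
    nlinarith
  have h5 := (convex_ball x R).norm_image_sub_le_of_norm_fderiv_le (𝕜 := ℝ) (C := 1) (f := a)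
    (fun y hy => (ha y hy).1) (fun y hy => by
      have := (ha y hy).2
      rw [gradient, LinearIsometryEquiv.norm_map] at this
      exact this.le) (hK hy) hx
  rw [h y (hK hy) h4, sub_zero, one_mul, ← dist_eq_norm, dist_comm] at h5
  exact h5.trans (hy.trans (h2.le.trans (min_le_left _ _)))

lemma ev_abs_le {a b : ℝ × E3 → ℝ} {p : ℝ × E3}
    (ha : ∀ᶠ q in 𝓝 p, ContDiffAt ℝ ∞ a q ∧ ‖gx a q‖ = 1)
    (hb : ∀ᶠ q in 𝓝 p, ContDiffAt ℝ ∞ b q ∧ ‖gx b q‖ = 1) (h0 : b p = 0)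
    (h : ∀ᶠ q in 𝓝 p, b q = 0 → a q = 0) : ∀ᶠ q in 𝓝 p, |a q| ≤ |b q| := by
  obtain ⟨r, hr, hB⟩ := Metric.eventually_nhds_iff_ball.1 (ha.and (hb.and h))
  filter_upwards [hb.self_of_nhds.1.continuousAt.abs.eventually
    (gt_mem_nhds (show _ < r / 2 by simpa [h0] using hr)), ball_mem_nhds p (half_pos hr)] with q a1 a2
  have hm : ∀ y ∈ ball q.2 (r / 2), (q.1, y) ∈ ball p r := fun y hy => by
    have : dist (q.1, y) q < r / 2 := by simpa [Prod.dist_eq, hr] using hy
    exact mem_ball.2 (by linarith [dist_triangle (q.1, y) q p, mem_ball.1 a2])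
  exact abs_le_static (a := fun y => a (q.1, y)) (b := fun y => b (q.1, y))
    (fun y hy => ⟨(hasFDerivAt_slice ((hB _ (hm y hy)).1.1.differentiableAt (by simp))
      ).differentiableAt, (hB _ (hm y hy)).1.2⟩)
    (fun y hy => ⟨(hasFDerivAt_slice ((hB _ (hm y hy)).2.1.1.differentiableAt (by simp))
      ).differentiableAt, (hB _ (hm y hy)).2.1.2⟩) (fun y hy => (hB _ (hm y hy)).2.2) a1

lemma zero_imp {f g : E3 → ℝ} {U : Set E3} {x : E3} (hU : U ∈ 𝓝 x) (hf : ContDiffAt ℝ 1 f x)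
    (hg : ContinuousAt g x) (hn : f x = 0 → gradient f x ≠ 0)
    (h : (μH[2] : Measure E3).restrict (U ∩ {y | f y = 0})
      = (μH[2] : Measure E3).restrict (U ∩ {y | g y = 0})) (h0 : f x = 0) : g x = 0 := by
  by_contra h1
  obtain ⟨V, h2, h3, h4⟩ := _root_.mem_nhds_iff.1 (hg.eventually_ne h1)
  have h5 := congrArg (fun m : Measure E3 => m V) h
  simp only [Measure.restrict_apply h3.measurableSet] at h5
  rw [show V ∩ (U ∩ {y | g y = 0}) = ∅ from eq_empty_of_forall_notMem fun y hy => h2 hy.1 hy.2.2,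
    measure_empty, ← inter_assoc] at h5
  exact pos_zero hf h0 (hn h0) (inter_mem (h3.mem_nhds h4) hU) h5

theorem regAt_of {μ : ℝ → Measure E3} {w : ℝ → E3 → ℝ} {I Z : Set ℝ} {A : ℝ} (h : IsW0 w I Z A)
    (hμ : ∀ t ∈ I \ Z, μ t = (μH[2] : Measure E3).restrict {x | w t x = 0}) {p : ℝ × E3}
    (hp : p.1 ∈ I) (hr : IsRegularPoint μ p.2 p.1) : RegAt w Z p := by
  obtain ⟨U, Φ, h1, h2, h3, h4, h5⟩ := hr
  have hw : ∀ q : ℝ × E3, q.1 ∈ I \ Z → ∀ᶠ q' in 𝓝 q,
      ContDiffAt ℝ ∞ (fun q : ℝ × E3 => w q.1 q.2) q' := fun q hq =>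
    mem_of_superset ((h.isOpen_reg.prod isOpen_univ).mem_nhds ⟨hq, trivial⟩) fun q' hq' =>
      h.smooth.contDiffAt ((h.isOpen_reg.prod isOpen_univ).mem_nhds hq')
  have hz : ∀ q ∈ U, q.1 ∈ I \ Z → (Φ q = 0 ↔ w q.1 q.2 = 0) := fun q hq ht => by
    have a1 : IsOpen {y | (q.1, y) ∈ U} := h1.preimage (Continuous.prodMk_right q.1)
    have a2 := h5 q.1
    rw [hμ _ ht, Measure.restrict_restrict a1.measurableSet] at a2
    have a3 : ContDiffAt ℝ 1 (fun y => Φ (q.1, y)) q.2 :=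
      ((h3.contDiffAt (h1.mem_nhds hq)).of_le (by simp)).comp q.2 (f := fun y => (q.1, y))
        (by fun_prop)
    have a4 : ContDiffAt ℝ 1 (w q.1) q.2 := (h.slice ht.1).smooth.contDiffAt.of_le (by simp)
    exact ⟨zero_imp (a1.mem_nhds hq) a3 a4.continuousAt (h4 q hq) a2.symm,
      zero_imp (a1.mem_nhds hq) a4 a3.continuousAt (fun h0 h1 => by
        simpa [h1] using ((h.slice ht.1).eik _ h0).self_of_nhds) a2⟩
  have hU : ∀ᶠ q in 𝓝 p, q ∈ U ∧ q.1 ∈ I :=
    Eventually.and (h1.mem_nhds h2) (continuousAt_fst.eventually (h.isOpen.mem_nhds hp))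
  by_cases h0 : Φ p = 0
  · obtain ⟨s, y, -, h6⟩ := exists_level (hU.mono fun q hq => h3.contDiffAt (h1.mem_nhds hq.1)) h0
      (h4 p h2 h0)
    obtain ⟨N, a1, a2, a3⟩ := _root_.eventually_nhds_iff.1 (hU.and h6)
    have a4 : ∀ q ∈ N, q.1 ∉ Z → (s q = 0 ↔ w q.1 q.2 = 0) := fun q hq ht => by
      rw [← hz q (a1 q hq).1.1 ⟨(a1 q hq).1.2, ht⟩, ← sign_eq_zero_iff, (a1 q hq).2.2.2.1,
        sign_eq_zero_iff]
    refine ⟨s, N, a3, a2, fun q hq => (a1 q hq).2.1.contDiffWithinAt, fun q hq _ =>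
      mem_of_superset (a2.mem_nhds hq) fun q' hq' => (a1 q' hq').2.2.1, a4, fun q hq ht b0 => ?_⟩
    have b1 : ∀ᶠ q' in 𝓝 q, ContDiffAt ℝ ∞ s q' ∧ ‖gx s q'‖ = 1 :=
      mem_of_superset (a2.mem_nhds hq) fun q' hq' => ⟨(a1 q' hq').2.1, (a1 q' hq').2.2.1⟩
    have b2 := (hw q ⟨(a1 q hq).1.2, ht⟩).and (h.eik q.1 (a1 q hq).1.2 q.2 ((a4 q hq ht).1 b0))
    have b3 : ∀ᶠ q' in 𝓝 q, s q' = 0 ↔ w q'.1 q'.2 = 0 := by
      filter_upwards [a2.mem_nhds hq, continuousAt_fst.eventually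
        (h.closed.isOpen_compl.mem_nhds ht)] with q' c1 c2 using a4 q' c1 c2
    rcases pm_of_abs (b1.mono fun _ c => c.1) (b2.mono fun _ c => c.1)
      (fun c => by simpa [c] using b1.self_of_nhds.2) (((ev_abs_le b1 b2 ((a4 q hq ht).1 b0)
        (b3.mono fun _ c => c.2)).and (ev_abs_le b2 b1 b0 (b3.mono fun _ c => c.1))).mono
        fun _ c => c.1.antisymm c.2) with c | c
    · exact ⟨1, Or.inl rfl, c.mono fun _ e => by simpa using e⟩
    · exact ⟨-1, Or.inr rfl, c.mono fun _ e => by simpa using e⟩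
  · obtain ⟨N, a1, a2, a3⟩ := _root_.eventually_nhds_iff.1
      (hU.and ((h3.contDiffAt (h1.mem_nhds h2)).continuousAt.eventually_ne h0))
    exact ⟨fun _ => 1, N, a3, a2, contDiffOn_const, by simp, fun q hq ht => iff_of_false one_ne_zero
      fun c => (a1 q hq).2 ((hz q (a1 q hq).1.1 ⟨(a1 q hq).1.2, ht⟩).2 c), by simp⟩

end Vale.Agent.P218WZ
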