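import Vale.Agent.P218WZ.Glue
import Vale.Agent.P218WZ.Local
import Vale.Agent.P218WA.Props
import Vale.Agent.P218.Assembly
import Vale.Agent.P218RS.Genus

/-! Uniqueness of tangent flows of almost regular flows, from the blocks of the team P218W. -/

open MeasureTheory Set Filter Topology Metric
open scoped RealInnerProductSpace ContDiff Pointwise

namespace Vale.Agent.P218WZ

open Vale.Agent.P218 Vale.Agent.P218UA Vale.Agent.P218WA Vale.Agent.P218UK Vale.Agent.P218.H552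
open Vale.Agent.P218GA (area cH HasCylConeEnds)
open Vale.Agent.P218VG (LGBG FiniteGenus)
open Vale.Agent.P218ST (MainSmooth IsSmoothShrinker)
open Vale.Agent.P218UZ (calcA tanA resc_meas weakTendsto_smul isSmoothShrinker)

theorem shapeW (h1 : M1W) (h2 : DensW) (h3 : LimW) (hT : TangW) : ShapeW := by
  intro w a Z A C ha hw
  obtain ⟨s, ν, hs, hZ⟩ := h1 w a Z A C ha hw
  obtain ⟨W, hW, rfl, hL⟩ := h3 w a Z A C ha hw s ν hs (h2 w a Z A C ha hw s ν hs hZ)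
  obtain ⟨D, hD⟩ := P218UV.endsThm W A C hW hw.one_le hw.one_le'
    (hT.ratio w a Z A ha hw.toIsW0 s _ hs) hL
  exact ⟨s, W, hs, hW, P218UZ.formatA W D hW hD⟩

lemma ratio_area {μ : ℝ → Measure E3} {W : E3 → ℝ} {t r : ℝ} (h : μ (t - r ^ 2) = area 2 W)
    (x : E3) : densityRatio 2 μ x t r = cH 2 * gd (ar W) x r := by
  rw [densityRatio, h, integral_area, P218UA.gd, mul_pow, Real.sq_sqrt (by positivity), mul_div_assoc]

lemma unitDensity_eq : unitDensity = cH 2 := by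
  have h := P218UT.gd_plane (e := EuclideanSpace.single 2 1) (by simp) 0 0 one_pos
  rw [unitDensity, ratio_area (W := fun y => ⟪y, EuclideanSpace.single 2 1⟫)
    (by simp [area, EuclideanSpace.inner_single_right]), ar, h]
  simp

theorem final (hC : CalcW) (hU : UnitW) (hS : ShapeW) (hL : LGBG) (hmain : MainSmooth)
    {μ : ℝ → Measure E3} (h : IsIntegralBrakkeFlow 2 μ) (h0 : μ 0 univ < ⊤) {a t₀ : ℝ} (ha : 0 ≤ a)
    (ht : a < t₀) (hR : IsAlmostRegularOn μ (Ioo a t₀)) (x₀ : E3) :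
    TangentFlowUnique 2 μ x₀ t₀ ∧ ∃ S : Set E3, (∃ Φ, IsSmoothShrinker S Φ) ∧ FiniteGenus S ∧
      HasCylConeEnds S ∧ ∀ s < 0, ∀ φ : E3 → ℝ, Continuous φ → HasCompactSupport φ →
        Tendsto (fun lam : ℝ => ∫ x, φ x ∂(rescaled 2 μ x₀ t₀ lam s)) atTop
          (𝓝 (∫ x in √(-s) • S, φ x ∂μH[2])) := by
  obtain ⟨T, H, hB⟩ := exists_BF h
  obtain ⟨B, h1⟩ := hR.regularTimes
  obtain ⟨c, h2, h3⟩ := exists_between ht
  have ht₀ := ha.trans_lt ht
  have h4 : Ioo c t₀ ⊆ Ioo a t₀ := Ioo_subset_Ioo_left h2.le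
  obtain ⟨w, Z, A, C, hw, hμ⟩ := exists_isG0 calcA hL h h0 (ha.trans_lt h2)
    (h1.mono fun t b1 b2 => b1 (h4 b2))
  obtain ⟨A', hw'⟩ := hU w _ Z A C hw fun p hp b1 => by
    refine regAt_of hw.toIsW0 (fun t b2 => by simpa [area] using hμ t b2) hp
      (hR.unitRegular _ (h4 hp) _ ?_)
    obtain ⟨l, b2, -⟩ := tendsto_center hB h0 p.2 (ha.trans_lt (h4 hp).1)
    have b3 : Tendsto (fun r : ℝ => p.1 - r ^ 2) (𝓝 0) (𝓝 p.1) := by
      simpa using (show Continuous fun r : ℝ => p.1 - r ^ 2 by fun_prop).tendsto 0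
    have : (𝓝[{r | 0 < r ∧ p.1 - r ^ 2 ∉ Z}] (0 : ℝ)).NeBot :=
      mem_closure_iff_nhdsWithin_neBot.1 (Metric.mem_closure_iff.2 fun ε hε => by
        obtain ⟨s, b4, b5⟩ := exists_notMem hw.null (sub_lt_self p.1 (pow_pos hε 2))
        refine ⟨√(p.1 - s), ⟨Real.sqrt_pos.2 (sub_pos.2 b4.2), ?_⟩, ?_⟩
        · rwa [Real.sq_sqrt (sub_pos.2 b4.2).le, sub_sub_cancel]
        · rw [dist_zero_left, Real.norm_of_nonneg (Real.sqrt_nonneg _), Real.sqrt_lt' hε]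
          linarith [b4.1])
    have b4 := tendsto_nhds_unique (b2.mono_left (nhdsWithin_mono _ fun r hr => hr.1))
      ((b1.const_mul (cH 2 : ℝ)).congr' (by
        filter_upwards [self_mem_nhdsWithin, mem_nhdsWithin_of_mem_nhds
          (b3.eventually (isOpen_Ioo.mem_nhds hp))] with r b5 b6
        exact (ratio_area (hμ _ ⟨b6, b5.2⟩) _).symm))
    rwa [unitDensity_eq, ← mul_one (cH 2 : ℝ), ← b4]
  obtain ⟨s, W, hs, hW, hE⟩ := hS _ (c - t₀) _ A' C (sub_neg.2 h3)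
    ((hC.rsG w _ Z A' C hw' t₀ x₀ 1 one_pos).mono isOpen_Ioo ordConnected_Ioo fun t b1 =>
      ⟨by linarith [b1.1], by linarith [b1.2]⟩)
  have h5 : area 2 W ∈ tangentSlices 2 μ x₀ t₀ := by
    rw [tangentSlices_eq hB h0 x₀ ht₀]
    refine ⟨surf_locFin hW.toIsSurf, fun i => Real.log (s i)⁻¹, Real.tendsto_log_atTop.comp
      (tendsto_inv_nhdsGT_zero.comp (tendsto_nhdsWithin_iff.2 ⟨hs.lim, .of_forall hs.pos⟩)),
      fun φ b1 b2 => ?_⟩
    rw [area_eq]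
    refine (weakTendsto_smul hs.weak (cH 2) φ b1 b2).congr' ?_
    have b3 : Tendsto (fun i => s i ^ 2) atTop (𝓝 0) := by simpa using hs.lim.pow 2
    filter_upwards [b3.eventually (gt_mem_nhds (sub_pos.2 h3))] with i b4
    have b5 : t₀ + -1 / (s i)⁻¹ ^ 2 = t₀ + 1 ^ 2 * (s i ^ 2 * -1) := by simp [div_eq_mul_inv]
    rw [NN, Real.exp_log (inv_pos.2 (hs.pos i)), rescaled, b5, hμ _ ⟨⟨by linarith,
      by linarith [pow_pos (hs.pos i) 2]⟩, hs.regT i⟩, area, resc_meas, tanA.ar_resc _ _ _ (hs.pos i)]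
    simp [ar, P218UW.rs, P218UW.sc]
  obtain ⟨h6, h7⟩ := hmain _ W (isSmoothShrinker hW) hE μ h h0 x₀ t₀ ht₀ h5
  refine ⟨h6, _, ⟨W, isSmoothShrinker hW⟩, P218RS.genus_of_ends (isSmoothShrinker hW) hE, hE,
    fun σ hσ φ b1 b2 => tendsto_iff_seq_tendsto.2 fun lam hlam =>
      tendsto_of_subseq_tendsto fun ns hns => ?_⟩
  have b3 := Real.tendsto_log_atTop.comp (hlam.comp hns)
  obtain ⟨κ, ψ, b4, b5, b6⟩ := (slow_NN hB h0 x₀ ht₀).exists_subseq b3
  obtain ⟨ν, b7, rfl⟩ := (tangentSlices_eq hB h0 x₀ ht₀).symm.subset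
    ⟨b4, _, b3.comp b5.tendsto_atTop, b6⟩
  have hq : 0 < √(-σ) := Real.sqrt_pos.2 (neg_pos.2 hσ)
  have b8 : ext 2 (ν (-1)) σ = (μH[2] : Measure E3).restrict (√(-σ) • {x | W x = 0}) := by
    have e1 := tanA.ar_resc (fun _ => W) (√(-σ))⁻¹ 0 (inv_pos.2 hq)
    have e2 := resc_meas {x | W x = 0} 0 √(-σ)
    simp only [sub_zero, zero_add, inv_inv, mem_ofPred_eq] at e1 e2
    rw [h7 ν b7, H552.ext, e2, ← ar, ← e1, ← area_eq, area, Nat.cast_ofNat]
    congr 1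
    ext x
    simp [resc, mem_smul_set_iff_inv_smul_mem₀ hq.ne', hq.ne']
  refine ⟨ψ, b8 ▸ (extend hB h0 x₀ ht₀ (b3.comp b5.tendsto_atTop) b6 hσ φ b1 b2).congr' ?_⟩
  filter_upwards [((hlam.comp hns).comp b5.tendsto_atTop).eventually_gt_atTop 0] with i hi
  simp only [Function.comp] at hi ⊢
  rw [Real.exp_log hi]

end Vale.Agent.P218WZ
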