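import Vale.Agent.P218WZ.Curv
import Vale.Agent.P218WZ.Betti
import Vale.Agent.P218WA.Defs
import Vale.Agent.P218VG.Final2
import Vale.Agent.P218.H552.Key2

/-! An almost regular Brakke flow is described by a level set function. -/

open MeasureTheory Set Filter Topology Metric
open scoped RealInnerProductSpace ContDiff Manifold ENNReal

namespace Vale.Agent.P218WZ

open Vale.Agent.P218 Vale.Agent.P218UA Vale.Agent.P218WA Vale.Agent.P218UK Vale.Agent.P218.H552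
open Vale.Agent.P218GA (area cH cH_pos' ae_area)
open Vale.Agent.P218VG (H1le LGBG)
open Vale.Agent.P218.H63 (lap)

lemma glue_time {α : Type} (e : α) (P : (ℝ → α) → ℝ → ℝ → Prop) {a b : ℝ}
    (h : ∀ᵐ t : ℝ, t ∈ Ioo a b → ∃ w c d, t ∈ Ioo c d ∧ P w c d) :
    ∃ (w : ℝ → α) (Z : Set ℝ), IsClosed Z ∧ volume Z = 0 ∧ (∀ t ∈ Z, w t = e) ∧
      ∀ t ∈ Ioo a b \ Z, ∃ w' c d, t ∈ Ioo c d ∧ P w' c d ∧ ∀ᶠ s in 𝓝 t, w s = w' s := by
  classical
  let ι := {x : (ℝ → α) × ℝ × ℝ // x.2.1 < x.2.2 → P x.1 x.2.1 x.2.2}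
  have : Nonempty ι := ⟨⟨(fun _ => e, 0, 0), fun h => absurd h (lt_irrefl _)⟩⟩
  obtain ⟨T, h1, h2⟩ := TopologicalSpace.isOpen_iUnion_countable
    (fun i : ι => Ioo i.1.2.1 i.1.2.2) fun _ => isOpen_Ioo
  obtain ⟨f, hf⟩ := countable_iff_exists_subset_range.1 h1
  let U : ℕ → Set ℝ := fun n =>
    Ioo (f n).1.2.1 (f n).1.2.2 \ ⋃ k ∈ {k | k < n}, Icc (f k).1.2.1 (f k).1.2.2
  have h3 : ∀ n, IsOpen (U n) := fun n =>
    isOpen_Ioo.sdiff ((finite_lt_nat n).isClosed_biUnion fun _ _ => isClosed_Icc)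
  have h4 : ∀ t n m, t ∈ U n → t ∈ U m → n = m := fun t n m hn hm => le_antisymm
    (not_lt.1 fun c => hn.2 (mem_biUnion c (Ioo_subset_Icc_self hm.1)))
    (not_lt.1 fun c => hm.2 (mem_biUnion c (Ioo_subset_Icc_self hn.1)))
  refine ⟨fun t => if c : ∃ n, t ∈ U n then (f c.choose).1.1 t else e, Icc a b \ ⋃ n, U n,
    isClosed_Icc.sdiff (isOpen_iUnion h3), measure_eq_zero_iff_ae_notMem.2 ?_,
    fun t ht => dif_neg fun c => ht.2 (mem_iUnion.2 c), fun t ht => ?_⟩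
  · filter_upwards [h, Measure.ae_ne volume a, Measure.ae_ne volume b, ae_all_iff.2 fun n =>
      (Measure.ae_ne volume (f n).1.2.1).and (Measure.ae_ne volume (f n).1.2.2)] with t a1 a2 a3 a4 ht
    obtain ⟨w, c, d, a5, a6⟩ := a1 ⟨ht.1.1.lt_of_ne' a2, ht.1.2.lt_of_ne a3⟩
    have a7 : ∃ n, t ∈ Ioo (f n).1.2.1 (f n).1.2.2 := by
      obtain ⟨i, b1, b2⟩ := mem_iUnion₂.1 (h2.symm.subset (mem_iUnion.2 ⟨⟨(w, c, d), fun _ => a6⟩, a5⟩))
      obtain ⟨n, rfl⟩ := hf b1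
      exact ⟨n, b2⟩
    refine ht.2 (mem_iUnion.2 ⟨Nat.find a7, Nat.find_spec a7, fun c => ?_⟩)
    obtain ⟨k, b1, b2⟩ := mem_iUnion₂.1 c
    exact Nat.find_min a7 b1 ⟨b2.1.lt_of_ne' (a4 k).1, b2.2.lt_of_ne (a4 k).2⟩
  · obtain ⟨n, hn⟩ := mem_iUnion.1 (by_contra fun c => ht.2 ⟨Ioo_subset_Icc_self ht.1, c⟩)
    refine ⟨_, _, _, hn.1, (f n).2 (hn.1.1.trans hn.1.2), mem_of_superset ((h3 n).mem_nhds hn)
      fun s hs => (dif_pos ⟨n, hs⟩).trans ?_⟩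
    rw [h4 s _ n (Exists.choose_spec (p := fun n => s ∈ U n) ⟨n, hs⟩) hs]

variable {μ : ℝ → Measure E3} {B : ℕ}

lemma IsRegularTime.flow {t : ℝ} (h : IsRegularTime μ B t) : ∃ w c d, t ∈ Ioo c d ∧
    IsFlow w (Ioo c d) ∧ ∀ s ∈ Ioo c d, μ s = area 2 (w s) ∧ H1le {x | w s x = 0} B := by
  obtain ⟨M, _, _, _, _, _, h1, F, a, T, h2, h3, h4, h5⟩ := h
  replace h3 : P218UZ.IsSmoothMCF F T := ⟨h3.smooth, h3.immersion, h3.flow⟩
  obtain ⟨w, hw, hz⟩ := P218VG.exists_isFlow' h3 (by linarith [h2.1, h2.2]) h4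
  have hm : ∀ s ∈ Ioo a (a + T), -a + 1 ^ 2 * s ∈ Ioo 0 T := fun s hs =>
    ⟨by linarith [hs.1], by linarith [hs.2]⟩
  have h6 := P218UW.isFlow_rs hw (-a) 0 one_pos
  refine ⟨P218UW.rs w (-a) 0 1, a, a + T, h2, ⟨isOpen_Ioo, ordConnected_Ioo,
    h6.smooth.mono (prod_mono_left hm), fun s hs => h6.eik s (hm s hs),
    fun s hs => h6.eqn s (hm s hs)⟩, fun s hs => ?_⟩
  have ht := Ioo_subset_Ico_self (hm s hs)
  have e : {x | P218UW.rs w (-a) 0 1 s x = 0} = range (F (-a + 1 ^ 2 * s)) := by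
    rw [← hz _ (hm s hs)]; simp [P218UW.rs, P218UW.sc]
  rw [area, e]
  exact ⟨by simpa using h5 _ ht, (h1.homeo (((h3.cont_sec ht).isClosedEmbedding
    (h3.injective h4 ht)).isEmbedding.toHomeomorph)).h1le⟩

lemma mass_le (h : IsIntegralBrakkeFlow 2 μ) (h0 : μ 0 univ < ⊤) {t r : ℝ} (ht : 0 < t) (hr : 0 < r)
    (x : E3) : (μ t).real (closedBall x r) ≤ Real.exp (1 / 4) * (μ 0).real univ / t * r ^ 2 := by
  obtain ⟨T, H, hB⟩ := exists_BF h
  have h1 := hB.Th_anti h0 x (t₀ := t + r ^ 2) le_rfl ht.le (by nlinarith)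
  have := hB.finite h0 le_rfl
  have := hB.finite h0 ht.le
  have hi := fun (ν : Measure E3) [IsFiniteMeasure ν] (s : ℝ) => integrable_phi0 (m := 2) (ν := ν) x
    (t + r ^ 2) s continuous_const (A := 1) (f := fun _ => 1) (by simp)
  have h2 : Th 2 μ x (t + r ^ 2) 0 ≤ (μ 0).real univ / t := by
    refine (integral_mono (hi _ 0) (integrable_const t⁻¹) fun y => ?_).trans_eq
      (by simp [div_eq_mul_inv])
    rw [phi0, Lam_sq (by positivity), gF, one_mul]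
    refine (mul_le_of_le_one_right (by simp; positivity) (Real.exp_le_one_iff.2 ?_)).trans
      (inv_anti₀ ht (by nlinarith))
    linarith [sq_nonneg ‖yy (Lam (t + r ^ 2) 0) x y‖]
  have h3 : (μ t).real (closedBall x r) * ((r ^ 2)⁻¹ * Real.exp (-1 / 4))
      ≤ Th 2 μ x (t + r ^ 2) t := by
    rw [← smul_eq_mul, ← setIntegral_const]
    refine (setIntegral_mono_on (integrable_const _).integrableOn (hi _ t).integrableOn
      measurableSet_closedBall fun y hy => ?_).trans (setIntegral_le_integral (hi _ t)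
      (Eventually.of_forall fun y => phi0_nonneg (fun _ => zero_le_one) _ _ _ _))
    have e : Lam (t + r ^ 2) t = r⁻¹ := by simp [Lam, Real.sqrt_sq hr.le]
    have : ‖yy r⁻¹ x y‖ ≤ 1 := by
      rw [yy, norm_smul, norm_inv, Real.norm_of_nonneg hr.le, inv_mul_le_iff₀ hr, mul_one]
      exact mem_closedBall_iff_norm.1 hy
    rw [phi0, gF, e, one_mul, inv_pow]
    gcongr
    nlinarith [norm_nonneg (yy r⁻¹ x y)]
  have h4 : Real.exp (-(1 / 4)) * Real.exp (1 / 4) = 1 := by rw [← Real.exp_add]; norm_num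
  calc _ = (μ t).real (closedBall x r) * ((r ^ 2)⁻¹ * Real.exp (-1 / 4))
        * (Real.exp (1 / 4) * r ^ 2) := by field_simp; rw [mul_assoc, h4, mul_one]
    _ ≤ (μ 0).real univ / t * (Real.exp (1 / 4) * r ^ 2) := by gcongr; exact h3.trans (h1.trans h2)
    _ = _ := by ring

theorem exists_isG0 (hC : Calc) (hL : LGBG) (h : IsIntegralBrakkeFlow 2 μ) (h0 : μ 0 univ < ⊤)
    {a b : ℝ} (ha : 0 < a) (hR : ∀ᵐ t : ℝ, t ∈ Ioo a b → IsRegularTime μ B t) :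
    ∃ w Z A C, IsG0 w (Ioo a b) Z A C ∧ ∀ t ∈ Ioo a b \ Z, μ t = area 2 (w t) := by
  obtain ⟨w, Z, h1, h2, h3, h4⟩ := glue_time (fun _ : E3 => (1 : ℝ)) _
    (hR.mono fun t ht h => (ht h).flow)
  have h5 : ∀ t ∈ Ioo a b \ Z, μ t = area 2 (w t) ∧ H1le {x | w t x = 0} B ∧ IsSurf (w t) :=
    fun t ht => by
      obtain ⟨w', c, d, a1, ⟨a2, a3⟩, a4⟩ := h4 t ht
      rw [a4.self_of_nhds]
      exact ⟨(a3 t a1).1, (a3 t a1).2, hC.slice _ _ a2 t a1⟩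
  have h6 : ∀ t x, w t x = 0 → t ∉ Z := fun t x hx ht => by simp [h3 t ht] at hx
  have h7 : ∀ t ∈ Z, ar (w t) = 0 := fun t ht => by simp [ar, h3 t ht]
  set A := max 1 (Real.exp (1 / 4) * (μ 0).real univ / a / cH 2)
  have h8 : ∀ t ∈ Ioo a b, AR (ar (w t)) A := fun t ht x r hr => by
    by_cases hZ : t ∈ Z
    · simp [h7 t hZ]
    have := hC.locFin _ (h5 t ⟨ht, hZ⟩).2.2
    have a1 := mass_le h h0 (ha.trans ht.1) hr x
    rw [(h5 t ⟨ht, hZ⟩).1, area_eq, measureReal_nnreal_smul_apply, ← le_div_iff₀' (cH_pos' 2)] at a1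
    rw [← ofReal_measureReal (isCompact_closedBall x r).measure_ne_top]
    refine ENNReal.ofReal_le_ofReal (a1.trans ?_)
    rw [mul_div_right_comm]
    gcongr
    refine le_max_of_le_right ?_
    gcongr
    exact ht.1.le
  obtain ⟨C, h9⟩ := hL B A
  obtain ⟨V, H, a1, a2, a3⟩ := h.ineq
  have a4 : ∀ᵐ t : ℝ, t ∈ Ioo a b → t ∉ Z ∧ H t =ᵐ[area 2 (w t)] mcv (w t) := by
    filter_upwards [a1, ae_notMem h2] with t b1 b2 ht
    obtain ⟨b3, b4⟩ := b1 (ha.trans ht.1).le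
    exact ⟨b2, mc_eq hC (h5 t ⟨ht, b2⟩).2.2
      ((h5 t ⟨ht, b2⟩).1 ▸ b3 ▸ mc_of_isMeanCurvature b4)⟩
  refine ⟨w, Z, A, max 1 C, ⟨⟨isOpen_Ioo, ordConnected_Ioo, h1, h2, fun p hp => ?_,
    fun t ht x hx => ?_, fun t ht x hx => ?_, fun t ht => ⟨1, one_ne_zero, h3 t ht⟩, le_max_left _ _,
    h8, fun c d hcd K hK => ?_, fun f b1 b2 b3 c hc d hd hcd => ?_⟩, le_max_left _ _,
    fun t ht z r hr => ?_⟩, fun t ht => (h5 t ht).1⟩
  · obtain ⟨w', c, d, b1, ⟨b2, -⟩, b3⟩ := h4 _ hp.1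
    exact ((b2.smooth.contDiffAt ((isOpen_Ioo.prod isOpen_univ).mem_nhds ⟨b1, trivial⟩)
      ).congr_of_eventuallyEq ((continuousAt_fst.eventually b3).mono fun q hq =>
        congrFun hq q.2)).contDiffWithinAt
  · obtain ⟨w', c, d, b1, ⟨b2, -⟩, b3⟩ := h4 _ ⟨ht, h6 t x hx⟩
    filter_upwards [b2.eik t b1 x (b3.self_of_nhds ▸ hx), (continuousAt_fst (p := (t, x))).eventually b3]
      with q c1 c2 using c2 ▸ c1
  · obtain ⟨w', c, d, b1, ⟨b2, -⟩, b3⟩ := h4 _ ⟨ht, h6 t x hx⟩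
    rw [b3.self_of_nhds] at hx ⊢
    rw [← b2.eqn t b1 x hx]
    exact EventuallyEq.deriv_eq (b3.mono fun s hs => congrFun hs x)
  · refine lt_of_le_of_lt ?_ (ENNReal.mul_lt_top (a := (cH 2)⁻¹) (by simpa using P218GA.cH_pos 2)
      ((lintegral_mono_set (s := Icc c d) fun t ht =>
        mem_Icc.2 ⟨(ha.trans (hcd ht).1).le, ht.2⟩).trans_lt (a2 d K hK)))
    rw [← lintegral_const_mul' _ _ (by simpa using (P218GA.cH_pos 2).ne')]
    refine lintegral_mono_ae ((ae_restrict_iff' measurableSet_Icc).2 (a4.mono fun t b1 ht => ?_))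
    obtain ⟨b2, b3, b4⟩ := h5 t ⟨hcd ht, (b1 (hcd ht)).1⟩
    have b5 : ∫⁻ x in K, ENNReal.ofReal (lap (w t) x ^ 2) ∂(area 2 (w t))
        ≤ ∫⁻ x in K, (1 + ‖H t x‖ₑ ^ 2) ∂(μ t) := by
      rw [b2]
      refine lintegral_mono_ae (ae_restrict_of_ae ?_)
      filter_upwards [(b1 (hcd ht)).2, ae_area b4.smooth.continuous] with x c1 c2
      rw [c1, enorm_mcv_sq b4 c2]
      exact le_add_self
    rw [area_eq, Measure.restrict_smul, lintegral_smul_measure] at b5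
    exact (ENNReal.mul_le_iff_le_inv (by simpa using (P218GA.cH_pos 2).ne') ENNReal.coe_ne_top).1 b5
  · have b4 := (a3 _ b1 b2 (fun p => b3 p.1 p.2) c d (ha.trans hc.1.1).le hcd).2
    rw [(h5 c hc).1, (h5 d hd).1, integral_area, integral_area, intervalIntegral.integral_congr_ae
      (g := fun t => cH 2 * bk w f t) (a4.mono fun t b5 ht => ?_),
      intervalIntegral.integral_const_mul] at b4
    · rw [dfc]
      nlinarith [cH_pos' 2]
    · have b6 : t ∈ Ioo a b := ordConnected_Ioo.uIcc_subset hc.1 hd.1 (uIoc_subset_uIcc ht)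
      obtain ⟨b7, -, b8⟩ := h5 t ⟨b6, (b5 b6).1⟩
      rw [b7, bk, ← integral_area]
      refine integral_congr_ae ?_
      filter_upwards [(b5 b6).2, ae_area b8.smooth.continuous] with x c1 c2
      rw [brakkeIntegrand, c1, norm_mcv_sq b8 c2, mcv, map_smul, inner_gradient_left, smul_eq_mul]
      ring
  · by_cases hZ : t ∈ Z
    · simp [h7 t hZ]
    exact (h9 _ (h5 t ⟨ht, hZ⟩).2.2 (h8 t ht) (h5 t ⟨ht, hZ⟩).2.1 z r hr).trans
      (mul_le_mul_of_nonneg_right (le_max_right _ _)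
        (add_nonneg zero_le_one (integral_nonneg fun _ => sq_nonneg _)))

end Vale.Agent.P218WZ
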